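import Vale.Agent.Q113.Geo
import Vale.Agent.Q113.Energy

/-!
# P113: halting detection by a particle of a forced Navier-Stokes flow from rest
-/

namespace Vale.Agent.Results.P113.HaltingByShears

open Set Vale.Agent.Q113

theorem result :
    ∃ (a lo hi : Fin 3 → ℚ) (C : Machine × List ℕ → Fin 3 → List Term),
      (∀ i, lo i < hi i) ∧ IsCompiler C ∧
      ∀ ν : ℝ, 0 < ν → ∀ (M : Machine) (w : List ℕ), M.WF → M.Word w →
        (∀ j, Smooth (force ν (C (M, w)) j) ∧ Per (Ici 0) (force ν (C (M, w)) j)) ∧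
        ∃ (u : Fin 3 → ℝ → V → ℝ) (p : ℝ → V → ℝ),
          (∀ j, Smooth (u j)) ∧ Smooth p ∧
          IsClassical ν (force ν (C (M, w))) (Ici 0) u p ∧
          (∀ T : ℝ, 0 < T → IsClassical ν (force ν (C (M, w))) (Icc 0 T) u p ∧
            ∀ v q, IsClassical ν (force ν (C (M, w))) (Icc 0 T) v q →
              ∀ t ∈ Icc 0 T, ∀ x, (∀ j, v j t x = u j t x) ∧ q t x = p t x) ∧
          ∃ X, IsTrajectory u (fun i => (a i : ℝ)) X ∧
            (∀ Y, IsTrajectory u (fun i => (a i : ℝ)) Y → ∀ t, 0 ≤ t → Y t = X t) ∧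
            ((∃ t, 0 ≤ t ∧ InBox lo hi (X t)) ↔ M.Halts w) := by
  refine ⟨0, boxLo, boxHi, comp, box_lt, isCompiler_comp, fun ν hν M w hM hw => ?_⟩
  obtain ⟨hf, hu, hp, hc, hT⟩ := comp_spec ν M w
  have e : (fun i => (((0 : Fin 3 → ℚ) i : ℚ) : ℝ)) = (0 : V) := by
    funext i; simp
  rw [e]
  exact ⟨hf, _, _, hu, hp, hc, fun T h => ⟨hT T h, fun v q hv => ns_unique hν h (hT T h) hv⟩,
    traj_vel ν hM hw⟩

end Vale.Agent.Results.P113.HaltingByShears
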